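import Vale.Agent.P207.FDefs
import Vale.Agent.P108L5.Defs

/-!
# P207: the Levi-Civita connection, its curvature and geodesics, the Liouville measure and the
topological entropy, without charts
-/

open scoped Manifold ContDiff ENNReal Topology
open MeasureTheory Filter VectorField

noncomputable section

namespace Vale.Agent.P207L

open Vale.Agent.P255 (RMetric innerAt)
open Vale.Agent.P207F (UT)

section Entropy

variable {X ι : Type}

/-- `U` is an open cover of `X`. -/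
def IsCover [TopologicalSpace X] (U : ι → Set X) : Prop := (∀ i, IsOpen (U i)) ∧ ∀ x, ∃ i, x ∈ U i

/-- The least number of members of `U ∨ T⁻¹ U ∨ ⋯ ∨ T^{-(n-1)} U` needed to cover `X`. -/
def joinNum (T : X → X) (U : ι → Set X) (n : ℕ) : ℕ :=
  sInf {m | ∃ W : Finset (Fin n → ι), W.card = m ∧ ∀ x, ∃ w ∈ W, ∀ i : Fin n, T^[i] x ∈ U (w i)}

/-- `h` is the entropy `h(T, U)` of `T` with respect to the cover `U`. -/
def IsCoverRate (T : X → X) (U : ι → Set X) (h : ℝ) : Prop :=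
  Tendsto (fun n : ℕ => Real.log (joinNum T U n) / n) atTop (𝓝 h)

/-- The topological entropy: the supremum of `h(T, U)` over all open covers `U`. -/
def hTop [TopologicalSpace X] (T : X → X) : ℝ≥0∞ :=
  ⨆ (ι : Type) (U : ι → Set X) (_ : IsCover U) (h : ℝ) (_ : IsCoverRate T U h), ENNReal.ofReal h

end Entropy

variable (E : Type) [NormedAddCommGroup E] [NormedSpace ℝ E] {M : Type} [TopologicalSpace M]
  [ChartedSpace E M]

/-- the tangent space at `x` -/
abbrev Tan (x : M) : Type := TangentSpace 𝓘(ℝ, E) x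

/-- the velocity `γ'(t)` -/
def vel (γ : ℝ → M) (t : ℝ) : Tan E (γ t) := mfderiv 𝓘(ℝ, ℝ) 𝓘(ℝ, E) γ t (1 : ℝ)

variable (M)

/-- vector fields -/
abbrev Fld : Type := (x : M) → Tan E x

variable [IsManifold 𝓘(ℝ, E) ∞ M]

/-- smooth vector fields -/
abbrev Vec : Type := Cₛ^∞⟮𝓘(ℝ, E); E, (Tan E : M → Type)⟯

/-- connections on the tangent bundle -/
abbrev Conn : Type := CovariantDerivative 𝓘(ℝ, E) E (Tan E : M → Type)

variable {E M}

/-- `∇_X Y` -/
def nab (D : Conn E M) (X Y : Fld E M) : Fld E M := fun x => D Y x (X x)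

/-- A Levi-Civita connection of `g`: smooth, torsion free and compatible with `g`. -/
structure IsLeviCivita (g : RMetric E M) (D : Conn E M) : Prop where
  smooth : D.ContMDiffCovariantDerivative ∞
  torsion : ∀ X Y : Vec E M, nab D X Y - nab D Y X = mlieBracket 𝓘(ℝ, E) X Y
  metric : ∀ (X Y Z : Vec E M) (x : M),
    mvfderiv 𝓘(ℝ, E) (fun y => innerAt g y (Y y) (Z y)) x (X x) =
      innerAt g x (nab D X Y x) (Z x) + innerAt g x (Y x) (nab D X Z x)

/-- The curvature `R(X,Y)Z = ∇_X ∇_Y Z - ∇_Y ∇_X Z - ∇_[X,Y] Z`. -/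
def curv (D : Conn E M) (X Y Z : Fld E M) : Fld E M :=
  nab D X (nab D Y Z) - nab D Y (nab D X Z) - nab D (mlieBracket 𝓘(ℝ, E) X Y) Z

/-- The sectional curvature at `x` of the plane spanned by `X x` and `Y x`. -/
def sec (g : RMetric E M) (D : Conn E M) (X Y : Fld E M) (x : M) : ℝ :=
  innerAt g x (curv D X Y Y x) (X x) /
    (innerAt g x (X x) (X x) * innerAt g x (Y x) (Y x) - innerAt g x (X x) (Y x) ^ 2)

/-- All sectional curvatures are strictly negative. -/
def NegCurved (g : RMetric E M) (D : Conn E M) : Prop :=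
  ∀ (X Y : Vec E M) (x : M), LinearIndependent ℝ ![X x, Y x] → sec g D X Y x < 0

/-- `∇R = 0`. -/
def Parallel (D : Conn E M) : Prop :=
  ∀ U X Y Z : Vec E M, nab D U (curv D X Y Z) - curv D (nab D U X) Y Z - curv D X (nab D U Y) Z -
    curv D X Y (nab D U Z) = 0

/-- `w` is the covariant derivative at time `t` of the field `V` along `γ`: near `t` the field is
`∑ fᵢ Yᵢ ∘ γ` with smooth vector fields `Yᵢ`, and `w = ∑ fᵢ' Yᵢ + fᵢ ∇_γ' Yᵢ`. -/
def HasCov (D : Conn E M) (γ : ℝ → M) (V : (t : ℝ) → Tan E (γ t)) (t : ℝ) (w : Tan E (γ t)) :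
    Prop :=
  ∃ (k : ℕ) (f : Fin k → ℝ → ℝ) (Y : Fin k → Vec E M), (∀ i, DifferentiableAt ℝ (f i) t) ∧
    (∀ᶠ s in 𝓝 t, V s = ∑ i, f i s • Y i (γ s)) ∧
    w = ∑ i, (deriv (f i) t • Y i (γ t) + f i t • D (Y i) (γ t) (vel E γ t))

/-- Tangent vectors extend to smooth fields, the curvature is a tensor, and the covariant
derivative along a curve is unique. -/
structure Sound (D : Conn E M) : Prop where
  extend : ∀ (x : M) (v : Tan E x), ∃ X : Vec E M, X x = v
  tensor : ∀ (X X' Y Y' Z Z' : Vec E M) (x : M), X x = X' x → Y x = Y' x → Z x = Z' x →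
    curv D X Y Z x = curv D X' Y' Z' x
  unique : ∀ (γ : ℝ → M) (V : (t : ℝ) → Tan E (γ t)) (t : ℝ) (w w' : Tan E (γ t)),
    MDifferentiableAt 𝓘(ℝ, ℝ) 𝓘(ℝ, E) γ t → HasCov D γ V t w → HasCov D γ V t w' → w = w'

/-- Geodesics: `∇_γ' γ' = 0`. -/
def IsGeodesic (D : Conn E M) (γ : ℝ → M) : Prop :=
  MDifferentiable 𝓘(ℝ, ℝ) 𝓘(ℝ, E) γ ∧ ∀ t, HasCov D γ (vel E γ) t 0

/-- `φ t p` is the velocity at time `t` of the geodesic with initial velocity `p`. -/
def IsFlow (g : RMetric E M) (D : Conn E M) (φ : ℝ → UT g → UT g) : Prop :=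
  ∀ p, φ 0 p = p ∧ IsGeodesic D (fun t => (φ t p).pt) ∧
    ∀ t, vel E (fun s => (φ s p).pt) t = (φ t p).vec

/-- The unit sphere `S_x M`; as a vector space `T_x M` is `E`. -/
abbrev Sph (g : RMetric E M) (x : M) : Type := {v : E // innerAt g x v v = 1}

/-- `S_x M` as a part of the unit tangent bundle -/
def Sph.emb {g : RMetric E M} {x : M} (v : Sph g x) : UT g := ⟨⟨x, v.1⟩, v.2⟩

/-- `ρ` is the restriction to `S_x M` of a rotation of `(T_x M, g_x)`. -/
def IsRot (g : RMetric E M) (x : M) (ρ : Sph g x → Sph g x) : Prop :=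
  ∃ L : E →ₗ[ℝ] E, (∀ v w, innerAt g x (L v) (L w) = innerAt g x v w) ∧ LinearMap.det L = 1 ∧
    ∀ v, (ρ v).1 = L v.1

variable [MeasurableSpace E]

/-- `σ` is a rotation-invariant probability measure on `S_x M`. -/
def RotInv (g : RMetric E M) (x : M) (σ : Measure (Sph g x)) : Prop :=
  IsProbabilityMeasure σ ∧ ∀ ρ, IsRot g x ρ → σ.map ρ = σ

/-- `∫ a dm = (1 / Vol M) ∫_M ∫_(S_x M) a dσ_x dVol`, where `μ = Vol`. -/
def IsLiou [MeasurableSpace M] (g : RMetric E M) (μ : Measure M)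
    (σ : (x : M) → Measure (Sph g x)) (m : Measure (UT g)) : Prop :=
  IsProbabilityMeasure m ∧ ∀ a : UT g → ℝ, Continuous a →
    ∫ p, a p ∂m = (μ.real Set.univ)⁻¹ * ∫ x, ∫ v, a v.emb ∂(σ x) ∂μ

end Vale.Agent.P207L
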