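import Vale.Agent.P207L3.Defs
import Vale.Agent.P109.H787.Shannon
import Mathlib.Analysis.Subadditive

/-!
# P207: the limits in the definitions of the two entropies exist
-/

open MeasureTheory Set Filter Topology

namespace Vale.Agent.P207L

open Vale.Agent.P108L

section KS

open Vale.Agent.P109.KS

variable {X : Type} [MeasurableSpace X] {μ : Measure X} {T : X → X} {d : ℕ}

theorem joinEnt_eq (f : X → Fin d) (n : ℕ) :
    joinEnt μ T (fun i => f ⁻¹' {i}) n = shannon μ (name T f n) := by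
  refine Finset.sum_congr rfl fun a _ => ?_
  congr 2
  ext x
  simp [name, funext_iff]

theorem part_of {f : X → Fin d} (hf : Measurable f) : IsPartition fun i => f ⁻¹' {i} :=
  ⟨fun i => hf (measurableSet_singleton i), fun x => ⟨f x, rfl, fun _ h => Eq.symm h⟩⟩

theorem part_fn {P : Fin d → Set X} (h : IsPartition P) :
    ∃ f : X → Fin d, Measurable f ∧ P = fun i => f ⁻¹' {i} := by
  choose f hf hu using h.2
  have e : P = fun i => f ⁻¹' {i} :=
    funext fun i => Set.ext fun x => ⟨fun k => (hu x i k).symm, fun k => (k : f x = i) ▸ hf x⟩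
  exact ⟨f, measurable_to_countable' fun i => congrFun e i ▸ h.1 i, e⟩

variable [IsProbabilityMeasure μ] (hT : MeasurePreserving T μ μ)
include hT

theorem name_add {f : X → Fin d} (hf : Measurable f) (m n : ℕ) :
    shannon μ (name T f (m + n)) ≤ shannon μ (name T f m) + shannon μ (name T f n) := by
  have k : ∀ n a, MeasurableSet (name T f n ⁻¹' {a}) := fun n a =>
    (measurable_pi_lambda _ fun i : Fin n => hf.comp (hT.measurable.iterate i))
      (measurableSet_singleton a)
  have k' : ∀ a, MeasurableSet ((fun x => name T f n (T^[m] x)) ⁻¹' {a}) :=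
    measurableSet_comp_iterate hT.measurable (k n) m
  obtain ⟨φ, hφ⟩ : ∃ φ : (Fin m → Fin d) × (Fin n → Fin d) → Fin (m + n) → Fin d,
      name T f (m + n) = fun x => φ (name T f m x, name T f n (T^[m] x)) := by
    refine ⟨fun q => Fin.append q.1 q.2, funext fun x => funext fun i => ?_⟩
    refine Fin.addCases (fun i => ?_) (fun i => ?_) i
    · simp [name]
    · simp [name, add_comm m, Function.iterate_add_apply]
  have h2 : ∀ q, MeasurableSet ((fun x => (name T f m x, name T f n (T^[m] x))) ⁻¹' {q}) := by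
    intro q
    have h3 : (fun x => (name T f m x, name T f n (T^[m] x))) ⁻¹' {q} =
        name T f m ⁻¹' {q.1} ∩ (fun x => name T f n (T^[m] x)) ⁻¹' {q.2} := by
      ext x
      simp [Prod.ext_iff]
    rw [h3]
    exact (k m q.1).inter (k' q.2)
  have h6 := shannon_comp_le (μ := μ) h2 φ
  have h5 := shannon_prod_le (μ := μ) (k m) k'
  rw [shannon_comp_iterate hT (k n)] at h5
  rw [hφ]
  exact h6.trans h5

theorem rate {P : Fin d → Set X} (h : IsPartition P) : ∃ r, IsRate μ T P r := by
  obtain ⟨f, hf, rfl⟩ := part_fn h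
  have s : Subadditive fun n => shannon μ (name T f n) := name_add hT hf
  refine ⟨_, (s.tendsto_lim ⟨0, ?_⟩).congr fun n => by rw [joinEnt_eq]⟩
  rintro _ ⟨n, rfl⟩
  exact div_nonneg (Finset.sum_nonneg fun a _ =>
    Real.negMulLog_nonneg measureReal_nonneg measureReal_le_one) n.cast_nonneg

theorem hKS_eq : hKS μ T = P207F.ksEntropy μ T := by
  have k : ∀ {d} (f : X → Fin d) r, IsRate μ T (fun i => f ⁻¹' {i}) r → limsup
      (fun n : ℕ => ENNReal.ofReal (shannon μ (name T f n) / n)) atTop = ENNReal.ofReal r :=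
    fun f r h => (ENNReal.tendsto_ofReal (h.congr fun n => by rw [joinEnt_eq])).limsup_eq
  refine le_antisymm (iSup_le fun d => iSup₂_le fun P hP => iSup₂_le fun r hr => ?_)
    (iSup_le fun d => iSup₂_le fun f hf => ?_)
  · obtain ⟨f, hf, rfl⟩ := part_fn hP
    exact le_iSup_of_le d (le_iSup₂_of_le f hf (k f r hr).ge)
  · obtain ⟨r, hr⟩ := rate hT (part_of hf)
    exact le_iSup_of_le d (le_iSup₂_of_le _ (part_of hf) (le_iSup₂_of_le r hr (k f r hr).le))

end KS

section Top

variable {X ι : Type} {T : X → X} {U : ι → Set X}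

theorem joinNum_le (n : ℕ) (W : Finset (Fin n → ι))
    (hW : ∀ x, ∃ w ∈ W, ∀ i : Fin n, T^[i] x ∈ U (w i)) : joinNum T U n ≤ W.card :=
  Nat.sInf_le ⟨W, rfl, hW⟩

theorem exists_joinNum {k : ℕ} (j : Fin k → ι) (hj : ∀ x, ∃ i, x ∈ U (j i)) (n : ℕ) :
    ∃ W : Finset (Fin n → ι), W.card = joinNum T U n ∧
      ∀ x, ∃ w ∈ W, ∀ i : Fin n, T^[i] x ∈ U (w i) := by
  classical
  choose f hf using hj
  exact Nat.sInf_mem (s := {m | ∃ W : Finset (Fin n → ι), W.card = m ∧
    ∀ x, ∃ w ∈ W, ∀ i : Fin n, T^[i] x ∈ U (w i)}) ⟨_, Finset.univ.image fun w i => j (w i), rfl,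
      fun x => ⟨_, Finset.mem_image_of_mem _ (Finset.mem_univ fun i : Fin n => f (T^[i] x)),
        fun i => hf _⟩⟩

theorem log_le {a b : ℕ} (h : a ≤ b) : Real.log a ≤ Real.log b := by
  rcases a.eq_zero_or_pos with rfl | ha
  · simpa using Real.log_natCast_nonneg b
  · exact Real.log_le_log (by exact_mod_cast ha) (by exact_mod_cast h)

theorem log_mul_le (a b : ℕ) : Real.log (a * b : ℕ) ≤ Real.log a + Real.log b := by
  rcases a.eq_zero_or_pos with rfl | ha
  · simpa using Real.log_natCast_nonneg b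
  rcases b.eq_zero_or_pos with rfl | hb
  · simpa using Real.log_natCast_nonneg a
  rw [Nat.cast_mul, Real.log_mul (by exact_mod_cast ha.ne') (by exact_mod_cast hb.ne')]

theorem rate_of {k : ℕ} (j : Fin k → ι) (hj : ∀ x, ∃ i, x ∈ U (j i)) :
    ∃ h, IsCoverRate T U h := by
  classical
  have s : Subadditive fun n => Real.log (joinNum T U n) := by
    intro m n
    obtain ⟨A, hA, cA⟩ := exists_joinNum (T := T) j hj m
    obtain ⟨B, hB, cB⟩ := exists_joinNum (T := T) j hj n
    refine (log_le ?_).trans (log_mul_le _ _)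
    refine (joinNum_le _ ((A ×ˢ B).image fun q => Fin.append q.1 q.2) fun x => ?_).trans
      (Finset.card_image_le.trans (by rw [Finset.card_product, hA, hB]))
    obtain ⟨a, ha, h1⟩ := cA x
    obtain ⟨b, hb, h2⟩ := cB (T^[m] x)
    refine ⟨_, Finset.mem_image_of_mem _ (Finset.mk_mem_product ha hb), fun i => ?_⟩
    refine Fin.addCases (fun i => ?_) (fun i => ?_) i
    · simpa using h1 i
    · simpa [add_comm m, Function.iterate_add_apply] using h2 i
  refine ⟨_, s.tendsto_lim ⟨0, ?_⟩⟩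
  rintro _ ⟨n, rfl⟩
  exact div_nonneg (Real.log_natCast_nonneg _) n.cast_nonneg

variable [TopologicalSpace X] [CompactSpace X]

theorem IsCover.fin (h : IsCover U) : ∃ (k : ℕ) (j : Fin k → ι), ∀ x, ∃ i, x ∈ U (j i) := by
  obtain ⟨t, ht⟩ := isCompact_univ.elim_finite_subcover U h.1 fun x _ => mem_iUnion.2 (h.2 x)
  refine ⟨t.card, fun i => (t.equivFin.symm i : ι), fun x => ?_⟩
  obtain ⟨i, hi, hx⟩ := mem_iUnion₂.1 (ht (mem_univ x))
  exact ⟨t.equivFin ⟨i, hi⟩, by simpa using hx⟩

theorem IsCover.rate (h : IsCover U) (T : X → X) : ∃ r, IsCoverRate T U r := by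
  obtain ⟨k, j, hj⟩ := h.fin
  exact rate_of j hj

theorem hTop_eq (T : X → X) : hTop T = P207F.topEntropy T := by
  classical
  have k : ∀ {d} (V : Fin d → Set X) r, IsCoverRate T V r → limsup
      (fun n : ℕ => ENNReal.ofReal (Real.log (P207F.coverNum T V n) / n)) atTop =
        ENNReal.ofReal r := fun V r h => (ENNReal.tendsto_ofReal h).limsup_eq
  refine le_antisymm (iSup_le fun ι => iSup₂_le fun U hU => iSup₂_le fun r hr => ?_)
    (iSup_le fun d => iSup₂_le fun V hV => iSup_le fun hc => ?_)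
  · obtain ⟨d, j, hj⟩ := hU.fin
    obtain ⟨r', hr'⟩ := rate_of (T := T) (U := fun i => U (j i)) id hj
    refine le_iSup_of_le d (le_iSup₂_of_le (fun i => U (j i)) (fun i => hU.1 _)
      (le_iSup_of_le (eq_univ_of_forall fun x => mem_iUnion.2 (hj x)) ?_))
    rw [k _ r' hr']
    refine ENNReal.ofReal_le_ofReal (le_of_tendsto_of_tendsto' hr hr' fun n => ?_)
    refine div_le_div_of_nonneg_right (log_le ?_) n.cast_nonneg
    obtain ⟨W, hW, cW⟩ := exists_joinNum (T := T) (U := fun i => U (j i)) id hj n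
    refine (joinNum_le _ (W.image fun w i => j (w i)) fun x => ?_).trans
      (Finset.card_image_le.trans hW.le)
    obtain ⟨w, hw, h1⟩ := cW x
    exact ⟨_, Finset.mem_image_of_mem _ hw, h1⟩
  · have hc' : IsCover V := ⟨hV, fun x => mem_iUnion.1 (hc ▸ mem_univ x)⟩
    obtain ⟨r, hr⟩ := hc'.rate T
    exact le_iSup_of_le (Fin d) (le_iSup₂_of_le V hc' (le_iSup₂_of_le r hr (k V r hr).le))

end Top

end Vale.Agent.P207L
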