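import Vale.Agent.P207L3.Defs
import Vale.Agent.P207.Bridge

/-!
# P207: the rotation-invariant probability measure on a unit sphere exists, is unique, and is the
cone measure
-/

open scoped Manifold ContDiff ENNReal
open Bundle MeasureTheory Set Filter Topology Module

noncomputable section

namespace Vale.Agent.P207L

open Vale.Agent.P255 (RMetric innerAt)
open Vale.Agent.P207F (UT EV)
open Vale.Agent.P207 (ballB innerB)

theorem det_refl {V : Type} [NormedAddCommGroup V] [InnerProductSpace ℝ V] [FiniteDimensional ℝ V]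
    {w : V} (hw : w ≠ 0) : LinearMap.det (ℝ ∙ w)ᗮ.reflection.toLinearMap = -1 := by
  rw [Submodule.det_reflection, Submodule.orthogonal_orthogonal, finrank_span_singleton hw, pow_one]

theorem exists_rot {V : Type} [NormedAddCommGroup V] [InnerProductSpace ℝ V]
    [FiniteDimensional ℝ V] (h : 2 ≤ finrank ℝ V) {u u' : V} (hu : ‖u‖ = ‖u'‖) (h0 : u ≠ 0) :
    ∃ L : V ≃ₗᵢ[ℝ] V, LinearMap.det L.toLinearMap = 1 ∧ L u = u' := by
  by_cases e : u = u'
  · exact ⟨LinearIsometryEquiv.refl ℝ V, LinearMap.det_id, e⟩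
  have h1 : (ℝ ∙ u)ᗮ ≠ ⊥ := by
    intro hb
    have h2 := (ℝ ∙ u).finrank_add_finrank_orthogonal
    rw [hb, finrank_bot, finrank_span_singleton h0] at h2
    omega
  obtain ⟨w, hw, hw0⟩ := Submodule.exists_mem_ne_zero_of_ne_bot h1
  refine ⟨(ℝ ∙ w)ᗮ.reflection.trans (ℝ ∙ (u - u'))ᗮ.reflection, ?_, ?_⟩
  · change LinearMap.det ((ℝ ∙ (u - u'))ᗮ.reflection.toLinearMap ∘ₗ
      (ℝ ∙ w)ᗮ.reflection.toLinearMap) = 1
    rw [LinearMap.det_comp, det_refl hw0, det_refl (sub_ne_zero.2 e)]
    norm_num
  · rw [LinearIsometryEquiv.trans_apply, Submodule.reflection_mem_subspace_eq_self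
      (Submodule.mem_orthogonal_singleton_iff_inner_left.2
        (Submodule.mem_orthogonal_singleton_iff_inner_right.1 hw)), Submodule.reflection_sub hu]

variable {n : ℕ} {M : Type} [TopologicalSpace M] [ChartedSpace (EV n) M]
  [IsManifold 𝓘(ℝ, EV n) ∞ M] {g : RMetric (EV n) M} {x : M}

theorem ia (v w : EV n) : innerAt g x v w = innerB g x v w := rfl

theorem trans_rot (hn : 2 ≤ n) (u u' : Sph g x) : ∃ ρ, IsRot g x ρ ∧ ρ u = u' := by
  let _ : RiemannianBundle fun p : M => TangentSpace 𝓘(ℝ, EV n) p := ⟨g.toRiemannianMetric⟩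
  have : FiniteDimensional ℝ (TangentSpace 𝓘(ℝ, EV n) x) :=
    inferInstanceAs (FiniteDimensional ℝ (EV n))
  have h1 : ∀ v : Sph g x, ‖(show TangentSpace 𝓘(ℝ, EV n) x from v.1)‖ = 1 := fun v => by
    rw [norm_eq_sqrt_real_inner]
    exact (congrArg Real.sqrt v.2).trans Real.sqrt_one
  obtain ⟨L, hL, hu⟩ := exists_rot (V := TangentSpace 𝓘(ℝ, EV n) x)
    (hn.trans_eq (finrank_euclideanSpace_fin (𝕜 := ℝ) (n := n)).symm)
    ((h1 u).trans (h1 u').symm) (norm_ne_zero_iff.1 ((h1 u).trans_ne one_ne_zero))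
  exact ⟨fun v => ⟨L v.1, (L.inner_map_map _ _).trans v.2⟩,
    ⟨L.toLinearMap, fun v w => L.inner_map_map v w, hL, fun _ => rfl⟩, Subtype.ext hu⟩

theorem IsRot.cont {ρ : Sph g x → Sph g x} (h : IsRot g x ρ) : Continuous ρ := by
  obtain ⟨L, -, -, h⟩ := h
  refine continuous_induced_rng.2 ?_
  exact (L.continuous_of_finiteDimensional.comp continuous_subtype_val).congr fun v => (h v).symm

/-- the kernel -/
def ker (g : RMetric (EV n) M) (x : M) (s : ℝ) (v u : Sph g x) : ℂ :=
  Complex.exp ((s * innerB g x v.1 u.1 : ℝ) * Complex.I)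

theorem ker_cont (s : ℝ) : Continuous (Function.uncurry (ker g x s)) := by
  unfold ker Function.uncurry
  fun_prop

theorem ker_symm (s : ℝ) (v u : Sph g x) : ker g x s v u = ker g x s u v := by
  unfold ker
  rw [show innerB g x v.1 u.1 = innerB g x u.1 v.1 from g.symm x _ _]

theorem RotInv.const (hn : 2 ≤ n) {σ : Measure (Sph g x)} (h : RotInv g x σ) (s : ℝ)
    (u u' : Sph g x) : ∫ v, ker g x s v u ∂σ = ∫ v, ker g x s v u' ∂σ := by
  obtain ⟨ρ, hρ, rfl⟩ := trans_rot hn u u'
  conv_rhs => rw [← h.2 ρ hρ]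
  rw [integral_map hρ.cont.measurable.aemeasurable
    ((ker_cont s).uncurry_right _).aestronglyMeasurable]
  obtain ⟨L, h1, -, h2⟩ := hρ
  refine integral_congr_ae (Eventually.of_forall fun v => ?_)
  simp only [ker, h2, ← ia, h1]

theorem RotInv.ker_eq (hn : 2 ≤ n) {σ σ' : Measure (Sph g x)} (h : RotInv g x σ)
    (h' : RotInv g x σ') (s : ℝ) (u : Sph g x) :
    ∫ v, ker g x s v u ∂σ = ∫ v, ker g x s v u ∂σ' := by
  have := h.1
  have := h'.1
  have hi : Integrable (Function.uncurry (ker g x s)) (σ.prod σ') :=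
    Integrable.of_bound (ker_cont s).aestronglyMeasurable 1
      (Eventually.of_forall fun p => (Complex.norm_exp_ofReal_mul_I _).le)
  have h1 := integral_integral_swap hi
  have h2 : ∀ v, ∫ y, ker g x s v y ∂σ' = ∫ y, ker g x s y u ∂σ' := fun v =>
    (integral_congr_ae (Eventually.of_forall fun y => ker_symm s v y)).trans (h'.const hn s v u)
  rw [funext h2, funext fun v => h.const hn s v u, integral_const, integral_const, probReal_univ,
    probReal_univ, one_smul, one_smul] at h1
  exact h1.symm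

/-- the radial projection -/
def rad (u : Sph g x) (v : EV n) : Sph g x :=
  open Classical in
  if h : v = 0 then u else ⟨(Real.sqrt (innerB g x v v))⁻¹ • v, (P207F.unitDir g x v h).2⟩

theorem rad_val (u : Sph g x) {v : EV n} (h : v ≠ 0) :
    (rad u v).1 = (Real.sqrt (innerB g x v v))⁻¹ • v := by
  rw [rad, dif_neg h]

theorem RotInv.unique (hn : 2 ≤ n) {σ σ' : Measure (Sph g x)} (h : RotInv g x σ)
    (h' : RotInv g x σ') : σ = σ' := by
  have := h.1
  have := h'.1
  have hm : MeasurableEmbedding (Subtype.val : Sph g x → EV n) := MeasurableEmbedding.subtype_coe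
    (isClosed_eq (P207.continuous_quad (innerB g x)) continuous_const).measurableSet
  refine hm.map_injective (Measure.ext_of_charFunDual (funext fun L => ?_))
  have hB : P255.IsMetricOn (fun _ : EV n => innerB g x) univ :=
    ⟨isOpen_univ, contDiffOn_const, fun _ _ => g.symm x, fun _ _ => g.pos x⟩
  obtain ⟨t, rfl⟩ : ∃ t, innerB g x t = L :=
    ⟨_, (hB.isInvertible (mem_univ 0)).self_apply_inverse L⟩
  rw [charFunDual_apply, charFunDual_apply, hm.integral_map, hm.integral_map]
  by_cases ht : t = 0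
  · simp [ht]
  have u : Sph g x := ⟨_, (P207F.unitDir g x t ht).2⟩
  have hp : Real.sqrt (innerB g x t t) ≠ 0 := (Real.sqrt_pos.2 (g.pos x t ht)).ne'
  have h1 := h.ker_eq hn h' (Real.sqrt (innerB g x t t)) (rad u t)
  have h2 : ∀ v : Sph g x, ker g x (Real.sqrt (innerB g x t t)) v (rad u t) =
      Complex.exp (innerB g x t v.1 * Complex.I) := fun v => by
    rw [ker, rad_val u ht, map_smul, smul_eq_mul, ← mul_assoc, mul_inv_cancel₀ hp, one_mul,
      show innerB g x v.1 t = innerB g x t v.1 from g.symm x _ _]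
  simpa only [h2] using h1

theorem meas_rad (u : Sph g x) : Measurable (rad u) := by
  classical
  have h : (fun v => (rad u v).1) =
      fun v => if v = 0 then u.1 else (Real.sqrt (innerB g x v v))⁻¹ • v := by
    funext v
    split_ifs with h
    · rw [rad, dif_pos h]
    · exact rad_val u h
  have h2 : Measurable fun v => (rad u v).1 := by
    rw [h]
    exact Measurable.ite (measurableSet_singleton 0) measurable_const
      ((P207.continuous_quad (innerB g x)).measurable.sqrt.inv.smul measurable_id)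
  exact h2.subtype_mk

theorem exists_inv (hn : 2 ≤ n) (x : M) : ∃ σ, RotInv g x σ ∧ ∀ a : UT g → ℝ, Continuous a →
    ∫ v, a v.emb ∂σ = P207F.sphAvg g a x := by
  have h0 : (EuclideanSpace.single ⟨0, by omega⟩ 1 : EV n) ≠ 0 := by simp
  have u : Sph g x := ⟨_, (P207F.unitDir g x _ h0).2⟩
  obtain ⟨c, hc⟩ := P207.innerB_LB g x
  have hz := (P207.volume_ballB_pos (innerB g x)).ne'
  have ht := hc.volume_ballB_lt_top.ne
  have hb := P207.measurableSet_ballB (innerB g x)
  have hae := ae_restrict_of_ae (s := ballB (innerB g x)) (P207.ae_ne_zero (n := n) (by omega))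
  refine ⟨(volume (ballB (innerB g x)))⁻¹ • (volume.restrict (ballB (innerB g x))).map (rad u),
    ⟨⟨?_⟩, fun ρ hρ => ?_⟩, fun a ha => ?_⟩
  · rw [Measure.smul_apply, Measure.map_apply (meas_rad u) MeasurableSet.univ, preimage_univ,
      Measure.restrict_apply_univ, smul_eq_mul, ENNReal.inv_mul_cancel hz ht]
  · rw [Measure.map_smul, Measure.map_map hρ.cont.measurable (meas_rad u)]
    obtain ⟨L, h1, h2, h3⟩ := hρ
    have hL : Measurable L := L.continuous_of_finiteDimensional.measurable
    have h4 : (volume.restrict (ballB (innerB g x))).map L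
        = volume.restrict (ballB (innerB g x)) := by
      have h5 : L ⁻¹' ballB (innerB g x) = ballB (innerB g x) :=
        Set.ext fun v => by simp only [ballB, mem_preimage, mem_ofPred_eq, ← ia, h1]
      have h6 := Measure.restrict_map (μ := volume) hL hb
      rw [h5, Measure.map_linearMap_addHaar_eq_smul_addHaar _ (h2.trans_ne one_ne_zero), h2] at h6
      simpa using h6.symm
    congr 1
    conv_rhs => rw [← h4, Measure.map_map (meas_rad u) hL]
    refine Measure.map_congr (hae.mono fun v hv => Subtype.ext ?_)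
    have h7 : L v ≠ 0 := fun h => (g.pos x v hv).ne' ((h1 v v).symm.trans (by rw [h, ia]; simp))
    rw [Function.comp_apply, Function.comp_apply, h3, rad_val u hv, rad_val u h7, map_smul, ← ia,
      ← ia, h1]
  · have he : Continuous (Sph.emb : Sph g x → UT g) :=
      ((FiberBundle.continuous_totalSpaceMk (EV n) (TangentSpace 𝓘(ℝ, EV n)) x).comp
        continuous_subtype_val).subtype_mk _
    rw [integral_smul_measure, integral_map (f := fun v => a v.emb) (meas_rad u).aemeasurable
      (ha.comp he).aestronglyMeasurable, ENNReal.toReal_inv, smul_eq_mul, mul_comm]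
    refine congrArg (fun r : ℝ => r * (volume (ballB (innerB g x))).toReal⁻¹)
      (integral_congr_ae (hae.mono fun v hv => ?_))
    simp only [rad, dif_neg hv]
    have h9 : P207F.radial g a x v = a (P207F.unitDir g x v hv) := dif_neg hv
    exact h9.symm

end Vale.Agent.P207L
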